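import Vale.Agent.P070.ZFC.Tower.Rec

/-!
Pointed Hilbert spaces, embeddings that carry a unital *-homomorphism of the operator algebras,
and inductive limits of such systems over a linear order.
-/

universe u v

namespace Vale.Agent.P070.ZFC.Tower

open UniformSpace InnerProductSpace
open scoped InnerProductSpace

/-- A Hilbert space with a distinguished vector. -/
structure HNode : Type (u + 1) where
  K : Type u
  [group : NormedAddCommGroup K]
  [ips : InnerProductSpace ℂ K]
  [complete : CompleteSpace K]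
  xi : K

attribute [instance] HNode.group HNode.ips HNode.complete

/-- The bounded operators of a node. -/
abbrev HNode.Op (N : HNode.{u}) : Type u := N.K →L[ℂ] N.K

/-- An isometric embedding with a compatible lifting of operators. -/
@[ext]
structure HMap (N M : HNode.{u}) : Type u where
  j : N.K →ₗᵢ[ℂ] M.K
  lift : N.Op →⋆ₐ[ℂ] M.Op
  inter : ∀ (T : N.Op) (x : N.K), lift T (j x) = j (T x)
  j_xi : j N.xi = M.xi

namespace HMap

variable {N M L : HNode.{u}}

/-- The identity. -/
noncomputable def id (N : HNode.{u}) : HMap N N where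
  j := LinearIsometry.id
  lift := StarAlgHom.id ℂ _
  inter _ _ := rfl
  j_xi := rfl

/-- Composition, in diagrammatic order. -/
noncomputable def comp (f : HMap N M) (g : HMap M L) : HMap N L where
  j := g.j.comp f.j
  lift := g.lift.comp f.lift
  inter T x := by simp [g.inter, f.inter]
  j_xi := by simp [f.j_xi, g.j_xi]

lemma comp_j_apply (f : HMap N M) (g : HMap M L) (x : N.K) : (f.comp g).j x = g.j (f.j x) := rfl

lemma comp_lift_apply (f : HMap N M) (g : HMap M L) (T : N.Op) :
    (f.comp g).lift T = g.lift (f.lift T) := rfl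

lemma lift_injective (f : HMap N M) : Function.Injective f.lift := by
  intro S T h
  ext x
  apply f.j.injective
  rw [← f.inter, ← f.inter, h]

lemma norm_lift (f : HMap N M) (T : N.Op) : ‖f.lift T‖ = ‖T‖ :=
  NonUnitalStarAlgHom.norm_map f.lift f.lift_injective T

end HMap

/-- The category of pointed Hilbert spaces with operator liftings. -/
noncomputable def HCat : Cat.{u + 1, u} where
  Obj := HNode.{u}
  Hom := HMap
  idH := HMap.id
  compH := HMap.comp
  id_comp _ := rfl
  comp_id _ := rfl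
  assoc _ _ _ := rfl

/-- A system of pointed Hilbert spaces over a linear order. -/
structure HSys (ι : Type v) [LinearOrder ι] where
  N : ι → HNode.{u}
  f : ∀ a b : ι, a ≤ b → HMap (N a) (N b)
  f_self : ∀ a, f a a le_rfl = HMap.id _
  f_comp : ∀ a b c (h₁ : a ≤ b) (h₂ : b ≤ c), (f a b h₁).comp (f b c h₂) = f a c (h₁.trans h₂)

namespace HSys

variable {ι : Type} [LinearOrder ι] (D : HSys.{u} ι)

lemma f_self_j (a : ι) (x : (D.N a).K) : (D.f a a le_rfl).j x = x := by rw [D.f_self]; rfl

lemma f_self_lift (a : ι) (T : (D.N a).Op) : (D.f a a le_rfl).lift T = T := by rw [D.f_self]; rfl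

lemma f_comp_j {a b c : ι} (h₁ : a ≤ b) (h₂ : b ≤ c) (x : (D.N a).K) :
    (D.f b c h₂).j ((D.f a b h₁).j x) = (D.f a c (h₁.trans h₂)).j x := by
  rw [← D.f_comp a b c h₁ h₂]; rfl

lemma f_comp_lift {a b c : ι} (h₁ : a ≤ b) (h₂ : b ≤ c) (T : (D.N a).Op) :
    (D.f b c h₂).lift ((D.f a b h₁).lift T) = (D.f a c (h₁.trans h₂)).lift T := by
  rw [← D.f_comp a b c h₁ h₂]; rfl

/-- Formal combinations of vectors of the members. -/
def Pre : Type u := (Σ a, (D.N a).K) →₀ ℂ

noncomputable instance : AddCommGroup D.Pre := inferInstanceAs (AddCommGroup (_ →₀ ℂ))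
noncomputable instance : Module ℂ D.Pre := inferInstanceAs (Module ℂ (_ →₀ ℂ))

/-- A formal vector as a finitely supported function. -/
noncomputable def toFinsupp : D.Pre ≃ₗ[ℂ] ((Σ a, (D.N a).K) →₀ ℂ) := LinearEquiv.refl ℂ _

/-- The formal vector of a member vector. -/
noncomputable def of (p : Σ a, (D.N a).K) : D.Pre := D.toFinsupp.symm (Finsupp.single p 1)

open Classical in
/-- Evaluation in the member `m`; meaningful once `m` bounds the support. -/
noncomputable def val (m : ι) : D.Pre →ₗ[ℂ] (D.N m).K :=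
  Finsupp.linearCombination ℂ (fun p => if h : p.1 ≤ m then (D.f p.1 m h).j p.2 else 0)
    ∘ₗ D.toFinsupp.toLinearMap

lemma val_of {m : ι} {p : Σ a, (D.N a).K} (h : p.1 ≤ m) :
    D.val m (D.of p) = (D.f p.1 m h).j p.2 := by
  simp [val, of, h]

/-- `m` bounds the support. -/
def Bounded (m : ι) (v : D.Pre) : Prop := ∀ p ∈ (D.toFinsupp v).support, p.1 ≤ m

lemma Bounded.mono {m n : ι} {v : D.Pre} (h : D.Bounded m v) (hmn : m ≤ n) : D.Bounded n v :=
  fun p hp => (h p hp).trans hmn

lemma f_val {m n : ι} (hmn : m ≤ n) {v : D.Pre} (hv : D.Bounded m v) :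
    (D.f m n hmn).j (D.val m v) = D.val n v := by
  simp only [val, LinearMap.comp_apply, Finsupp.linearCombination_apply, Finsupp.sum]
  rw [map_sum]
  refine Finset.sum_congr rfl fun p hp => ?_
  rw [LinearIsometry.map_smul, dif_pos (hv p hp), dif_pos ((hv p hp).trans hmn), D.f_comp_j]

variable [Nonempty ι]

lemma exists_bound (v : D.Pre) : ∃ m, D.Bounded m v := by
  classical
  obtain ⟨m, hm⟩ := ((D.toFinsupp v).support.image Sigma.fst).exists_le
  exact ⟨m, fun p hp => hm _ (Finset.mem_image_of_mem _ hp)⟩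

lemma exists_bound₂ (v w : D.Pre) : ∃ m, D.Bounded m v ∧ D.Bounded m w := by
  obtain ⟨m, hm⟩ := D.exists_bound v
  obtain ⟨n, hn⟩ := D.exists_bound w
  exact ⟨max m n, hm.mono D (le_max_left _ _), hn.mono D (le_max_right _ _)⟩

/-- A bound of the supports of two vectors. -/
noncomputable def bound (v w : D.Pre) : ι := (D.exists_bound₂ v w).choose

/-- The semi-inner product. -/
noncomputable def ip (v w : D.Pre) : ℂ := ⟪D.val (D.bound v w) v, D.val (D.bound v w) w⟫_ℂ

lemma ip_eq {m : ι} {v w : D.Pre} (hv : D.Bounded m v) (hw : D.Bounded m w) :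
    D.ip v w = ⟪D.val m v, D.val m w⟫_ℂ := by
  obtain ⟨h₁, h₂⟩ := (D.exists_bound₂ v w).choose_spec
  rw [ip]
  rcases le_total m (D.bound v w) with h | h
  · rw [← D.f_val h hv, ← D.f_val h hw, LinearIsometry.inner_map_map]
  · rw [← D.f_val h h₁, ← D.f_val h h₂, LinearIsometry.inner_map_map]

/-- The semi-inner product structure. -/
noncomputable abbrev core : PreInnerProductSpace.Core ℂ D.Pre where
  inner := D.ip
  conj_inner_symm v w := by
    obtain ⟨m, hv, hw⟩ := D.exists_bound₂ v w
    rw [D.ip_eq hv hw, D.ip_eq hw hv, inner_conj_symm]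
  re_inner_nonneg v := by
    obtain ⟨m, hm⟩ := D.exists_bound v
    rw [D.ip_eq hm hm]
    exact inner_self_nonneg
  add_left u v w := by
    obtain ⟨m, hu, hv⟩ := D.exists_bound₂ u v
    obtain ⟨n, hn⟩ := D.exists_bound w
    obtain ⟨k, hk⟩ := D.exists_bound (u + v)
    have e₁ := le_max_left (max m n) k
    have e₂ : k ≤ max (max m n) k := le_max_right _ _
    have hu' := hu.mono D ((le_max_left m n).trans e₁)
    have hv' := hv.mono D ((le_max_left m n).trans e₁)
    have hn' := hn.mono D ((le_max_right m n).trans e₁)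
    rw [D.ip_eq (hk.mono D e₂) hn', D.ip_eq hu' hn', D.ip_eq hv' hn', map_add, inner_add_left]
  smul_left v w c := by
    obtain ⟨m, hv, hw⟩ := D.exists_bound₂ v w
    have hc : D.Bounded m (c • v) := fun p hp => by
      rw [map_smul] at hp
      exact hv p (Finsupp.support_smul hp)
    rw [D.ip_eq hc hw, D.ip_eq hv hw, map_smul, inner_smul_left]

noncomputable instance : SeminormedAddCommGroup D.Pre :=
  InnerProductSpace.Core.toSeminormedAddCommGroup (c := D.core)

noncomputable instance : InnerProductSpace ℂ D.Pre := InnerProductSpace.ofCore D.core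

lemma inner_def (v w : D.Pre) : ⟪v, w⟫_ℂ = D.ip v w := rfl

lemma norm_eq {m : ι} {v : D.Pre} (hv : D.Bounded m v) : ‖v‖ = ‖D.val m v‖ := by
  rw [@norm_eq_sqrt_re_inner ℂ _ _ _ _ v, @norm_eq_sqrt_re_inner ℂ _ _ _ _ (D.val m v),
    D.inner_def, D.ip_eq hv hv]

omit [Nonempty ι] in
lemma bounded_of {m : ι} (p : Σ a, (D.N a).K) (h : p.1 ≤ m) : D.Bounded m (D.of p) := by
  intro q hq
  simp [of] at hq
  exact hq ▸ h

lemma coe_eq_coe {m : ι} {v w : D.Pre} (hv : D.Bounded m v) (hw : D.Bounded m w)
    (h : D.val m v = D.val m w) : (v : Completion D.Pre) = w := by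
  classical
  have hb : D.Bounded m (v - w) := fun p hp => by
    rw [map_sub] at hp
    rcases Finset.mem_union.1 (Finsupp.support_sub hp) with h | h
    exacts [hv p h, hw p h]
  rw [← sub_eq_zero, ← Completion.coe_sub, ← norm_eq_zero, Completion.norm_coe,
    D.norm_eq hb, map_sub, h, sub_self, norm_zero]

/-- The limit space. -/
noncomputable abbrev lim : HNode.{u} where
  K := Completion D.Pre
  xi := (D.of ⟨Classical.arbitrary ι, (D.N _).xi⟩ : Completion D.Pre)

/-- A member vector in the limit space. -/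
noncomputable def inj (a : ι) (x : (D.N a).K) : D.lim.K := ((D.of ⟨a, x⟩ : D.Pre) : Completion D.Pre)

lemma inj_f {a b : ι} (h : a ≤ b) (x : (D.N a).K) : D.inj b ((D.f a b h).j x) = D.inj a x :=
  D.coe_eq_coe (m := b) (D.bounded_of _ le_rfl) (D.bounded_of _ h)
    (by rw [D.val_of (p := ⟨b, _⟩) le_rfl, D.val_of (p := ⟨a, x⟩) h, D.f_self_j])

lemma norm_inj (a : ι) (x : (D.N a).K) : ‖D.inj a x‖ = ‖x‖ := by
  show ‖((D.of ⟨a, x⟩ : D.Pre) : Completion D.Pre)‖ = _
  rw [Completion.norm_coe, D.norm_eq (D.bounded_of ⟨a, x⟩ le_rfl),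
    D.val_of (p := ⟨a, x⟩) le_rfl, D.f_self_j]

lemma coe_eq_inj {m : ι} {v : D.Pre} (hv : D.Bounded m v) :
    ((v : Completion D.Pre) : D.lim.K) = D.inj m (D.val m v) := by
  refine D.coe_eq_coe (m := m) hv (D.bounded_of _ le_rfl) ?_
  rw [D.val_of (p := ⟨m, _⟩) le_rfl, D.f_self_j]

/-- The isometric embedding of a member. -/
noncomputable def leg (a : ι) : (D.N a).K →ₗᵢ[ℂ] D.lim.K where
  toFun := D.inj a
  map_add' x y := by
    refine Eq.trans ?_ (Completion.coe_add (D.of ⟨a, x⟩) (D.of ⟨a, y⟩))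
    refine D.coe_eq_coe (m := a) (D.bounded_of _ le_rfl) ?_ ?_
    · intro p hp
      classical
      rw [map_add] at hp
      rcases Finset.mem_union.1 (Finsupp.support_add hp) with h | h
      exacts [D.bounded_of ⟨a, x⟩ le_rfl p h, D.bounded_of ⟨a, y⟩ le_rfl p h]
    · simp [D.val_of, D.f_self_j]
  map_smul' c x := by
    refine Eq.trans ?_ (Completion.coe_smul c (D.of ⟨a, x⟩))
    refine D.coe_eq_coe (m := a) (D.bounded_of _ le_rfl) ?_ ?_
    · intro p hp
      rw [map_smul] at hp
      exact D.bounded_of ⟨a, x⟩ le_rfl p (Finsupp.support_smul hp)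
    · simp [D.val_of, D.f_self_j]
  norm_map' := D.norm_inj a

lemma leg_f {a b : ι} (h : a ≤ b) (x : (D.N a).K) :
    D.leg b ((D.f a b h).j x) = D.leg a x := D.inj_f h x

/-- Vectors of members past any given index are dense. -/
lemma dense_legs (a : ι) : Dense {y : D.lim.K | ∃ b, a ≤ b ∧ ∃ x, D.leg b x = y} := by
  refine Completion.denseRange_coe.mono ?_
  rintro _ ⟨v, rfl⟩
  obtain ⟨m, hm⟩ := D.exists_bound v
  refine ⟨max a m, le_max_left _ _, D.val (max a m) v, ?_⟩
  exact (D.coe_eq_inj (hm.mono D (le_max_right _ _))).symm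

/-- Operators agreeing on the members past some index are equal. -/
lemma op_ext {S T : D.lim.Op} (a : ι) (h : ∀ b, a ≤ b → ∀ x, S (D.leg b x) = T (D.leg b x)) :
    S = T := by
  refine DFunLike.coe_injective (Continuous.ext_on (D.dense_legs a) S.continuous T.continuous ?_)
  rintro _ ⟨b, hb, x, rfl⟩
  exact h b hb x

/-- An operator of the member `a` on formal vectors. -/
noncomputable def preOp (a : ι) (T : (D.N a).Op) : D.Pre →ₗ[ℂ] D.Pre :=
  Finsupp.linearCombination ℂ (fun p => D.of ⟨max a p.1,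
      (D.f a (max a p.1) (le_max_left _ _)).lift T
        ((D.f p.1 (max a p.1) (le_max_right _ _)).j p.2)⟩)
    ∘ₗ D.toFinsupp.toLinearMap

lemma preOp_spec {a m : ι} (T : (D.N a).Op) {v : D.Pre} (hv : D.Bounded m v) (ha : a ≤ m) :
    D.Bounded m (D.preOp a T v) ∧
      D.val m (D.preOp a T v) = (D.f a m ha).lift T (D.val m v) := by
  classical
  simp only [preOp, LinearMap.comp_apply, LinearEquiv.coe_coe, Finsupp.linearCombination_apply,
    Finsupp.sum]
  constructor
  · intro q hq
    rw [map_sum] at hq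
    obtain ⟨p, hp, hq'⟩ := Finset.mem_biUnion.1 (Finsupp.support_finsetSum hq)
    rw [map_smul] at hq'
    exact D.bounded_of _ (max_le ha (hv p hp)) q (Finsupp.support_smul hq')
  · rw [map_sum]
    conv_rhs => rw [val, LinearMap.comp_apply, LinearEquiv.coe_coe,
      Finsupp.linearCombination_apply, Finsupp.sum, map_sum]
    refine Finset.sum_congr rfl fun p hp => ?_
    rw [map_smul, map_smul, dif_pos (hv p hp),
      D.val_of (p := ⟨max a p.1, _⟩) (max_le ha (hv p hp)), ← HMap.inter, D.f_comp_lift,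
      D.f_comp_j]

lemma norm_preOp_le (a : ι) (T : (D.N a).Op) (v : D.Pre) :
    ‖D.preOp a T v‖ ≤ ‖T‖ * ‖v‖ := by
  obtain ⟨n, hn⟩ := D.exists_bound v
  have hv := hn.mono D (le_max_right a n)
  obtain ⟨hb, he⟩ := D.preOp_spec T hv (le_max_left a n)
  rw [D.norm_eq hb, D.norm_eq hv, he, ← (D.f a _ (le_max_left a n)).norm_lift T]
  exact ContinuousLinearMap.le_opNorm _ _

/-- The operator on the limit space. -/
noncomputable def limOp (a : ι) (T : (D.N a).Op) : D.lim.Op :=
  ((D.preOp a T).mkContinuous ‖T‖ (D.norm_preOp_le a T)).completion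

lemma limOp_leg {a b : ι} (h : a ≤ b) (T : (D.N a).Op) (x : (D.N b).K) :
    D.limOp a T (D.leg b x) = D.leg b ((D.f a b h).lift T x) := by
  show D.limOp a T ((D.of ⟨b, x⟩ : D.Pre) : Completion D.Pre) = _
  rw [limOp]
  refine (ContinuousLinearMap.completion_apply_coe _ _).trans ?_
  obtain ⟨hb, he⟩ := D.preOp_spec T (D.bounded_of ⟨b, x⟩ (m := b) le_rfl) h
  refine (D.coe_eq_inj hb).trans ?_
  rw [he, D.val_of (p := ⟨b, x⟩) le_rfl, D.f_self_j]
  rfl

lemma limOp_star (a : ι) (T : (D.N a).Op) : D.limOp a (star T) = star (D.limOp a T) := by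
  rw [ContinuousLinearMap.star_eq_adjoint (A := D.limOp a T)]
  refine D.op_ext a fun b hb x => ?_
  refine ext_inner_left ℂ fun y => ?_
  rw [ContinuousLinearMap.adjoint_inner_right]
  induction y using (D.dense_legs a).induction with
  | mem y hy =>
    obtain ⟨c, hc, z, rfl⟩ := hy
    rw [← D.leg_f (le_max_left b c), ← D.leg_f (le_max_right b c),
      D.limOp_leg (hb.trans (le_max_left b c)), D.limOp_leg (hb.trans (le_max_left b c)),
      LinearIsometry.inner_map_map, LinearIsometry.inner_map_map, map_star,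
      ContinuousLinearMap.star_eq_adjoint, ContinuousLinearMap.adjoint_inner_right]
  | isClosed => exact isClosed_eq (by fun_prop) (by fun_prop)

/-- The lifting to the limit space. -/
noncomputable def limLift (a : ι) : (D.N a).Op →⋆ₐ[ℂ] D.lim.Op where
  toFun := D.limOp a
  map_one' := D.op_ext a fun b hb x => by simp [D.limOp_leg hb]
  map_mul' S T := D.op_ext a fun b hb x => by
    simp [D.limOp_leg hb]
  map_zero' := D.op_ext a fun b hb x => by simp [D.limOp_leg hb]
  map_add' S T := D.op_ext a fun b hb x => by simp [D.limOp_leg hb]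
  commutes' c := D.op_ext a fun b hb x => by
    simp [D.limOp_leg hb, Algebra.algebraMap_eq_smul_one]
  map_star' := D.limOp_star a

lemma limLift_leg {a b : ι} (h : a ≤ b) (T : (D.N a).Op) (x : (D.N b).K) :
    D.limLift a T (D.leg b x) = D.leg b ((D.f a b h).lift T x) := D.limOp_leg h T x

lemma leg_xi (a : ι) : D.leg a (D.N a).xi = D.lim.xi := by
  show D.leg a _ = D.leg (Classical.arbitrary ι) _
  rw [← D.leg_f (le_max_left a (Classical.arbitrary ι)),
    ← D.leg_f (le_max_right a (Classical.arbitrary ι)), HMap.j_xi, HMap.j_xi]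

/-- The morphism into the limit. -/
noncomputable def toLim (a : ι) : HMap (D.N a) D.lim where
  j := D.leg a
  lift := D.limLift a
  inter T x := by rw [D.limLift_leg le_rfl, D.f_self_lift]
  j_xi := D.leg_xi a

lemma toLim_comm {a b : ι} (h : a ≤ b) : (D.f a b h).comp (D.toLim b) = D.toLim a := by
  refine HMap.ext ?_ ?_
  · ext x; exact D.leg_f h x
  · refine StarAlgHom.ext fun T => D.op_ext b fun c hc x => ?_
    show D.limLift b ((D.f a b h).lift T) (D.leg c x) = D.limLift a T (D.leg c x)
    rw [D.limLift_leg hc, D.limLift_leg (h.trans hc), D.f_comp_lift]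

end HSys

end Vale.Agent.P070.ZFC.Tower
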