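import Mathlib

/-!
Transfinite recursion of directed systems along a well order, for an abstract category given by
bare data.  One function `build` says how a system on a strict initial segment is capped by a
cocone; the output is a system on the whole order whose caps are the prescribed ones.
-/

universe u v w

namespace Vale.Agent.P070.ZFC.Tower

/-- Objects and morphisms with composition in diagrammatic order. -/
structure Cat where
  Obj : Type v
  Hom : Obj → Obj → Type w
  idH : ∀ X, Hom X X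
  compH : ∀ {X Y Z}, Hom X Y → Hom Y Z → Hom X Z
  id_comp : ∀ {X Y} (f : Hom X Y), compH (idH X) f = f
  comp_id : ∀ {X Y} (f : Hom X Y), compH f (idH Y) = f
  assoc : ∀ {X Y Z W} (f : Hom X Y) (g : Hom Y Z) (h : Hom Z W),
    compH (compH f g) h = compH f (compH g h)

variable (𝒞 : Cat.{v, w}) {Ω : Type u} [LinearOrder Ω]

/-- A directed system indexed by a set of the order. -/
structure Sys (s : Set Ω) where
  obj : s → 𝒞.Obj
  map : ∀ a b : s, a.1 ≤ b.1 → 𝒞.Hom (obj a) (obj b)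
  map_id : ∀ a, map a a le_rfl = 𝒞.idH (obj a)
  map_comp : ∀ a b c (h₁ : a.1 ≤ b.1) (h₂ : b.1 ≤ c.1),
    𝒞.compH (map a b h₁) (map b c h₂) = map a c (h₁.trans h₂)

variable {𝒞}

/-- A cocone under a system. -/
structure Cocone {s : Set Ω} (D : Sys 𝒞 s) where
  apex : 𝒞.Obj
  leg : ∀ a : s, 𝒞.Hom (D.obj a) apex
  comm : ∀ (a b : s) (h : a.1 ≤ b.1), 𝒞.compH (D.map a b h) (leg b) = leg a

/-- The restriction of a global system to a strict initial segment. -/
def Sys.below (T : Sys 𝒞 (Set.univ : Set Ω)) (l : Ω) : Sys 𝒞 (Set.Iio l) where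
  obj a := T.obj ⟨a.1, Set.mem_univ _⟩
  map a b h := T.map ⟨a.1, Set.mem_univ _⟩ ⟨b.1, Set.mem_univ _⟩ h
  map_id a := T.map_id _
  map_comp _ _ _ h₁ h₂ := T.map_comp _ _ _ h₁ h₂

/-- The canonical cocone of a global system over a strict initial segment. -/
def Sys.cap (T : Sys 𝒞 (Set.univ : Set Ω)) (l : Ω) : Cocone (T.below l) where
  apex := T.obj ⟨l, Set.mem_univ _⟩
  leg a := T.map ⟨a.1, Set.mem_univ _⟩ ⟨l, Set.mem_univ _⟩ (le_of_lt a.2)
  comm _ _ h := T.map_comp _ _ _ h _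

/-- Transport of a morphism along an equality of sources. -/
def castHom {X X' Y : 𝒞.Obj} (h : X = X') (f : 𝒞.Hom X Y) : 𝒞.Hom X' Y := h ▸ f

lemma castHom_heq {X X' Y : 𝒞.Obj} (h : X = X') (f : 𝒞.Hom X Y) : HEq (castHom h f) f := by
  subst h; rfl

@[simp] lemma castHom_rfl {X Y : 𝒞.Obj} (f : 𝒞.Hom X Y) : castHom (rfl : X = X) f = f := rfl

/-- One stage of the recursion: an object and morphisms from guessed earlier objects. -/
structure Stage (𝒞 : Cat.{v, w}) {Ω : Type u} [LinearOrder Ω] (l : Ω) where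
  obj : 𝒞.Obj
  prev : Set.Iio l → 𝒞.Obj
  into : ∀ a, 𝒞.Hom (prev a) obj

namespace Rec

variable {s : Set Ω}

/-- The guesses of a family of stages are right and compatible. -/
structure Good (F : ∀ a : s, Stage 𝒞 a.1) : Prop where
  prev_eq : ∀ (a b : s) (h : a.1 < b.1), (F b).prev ⟨a.1, h⟩ = (F a).obj
  comm : ∀ (a b c : s) (h₁ : a.1 < b.1) (h₂ : b.1 < c.1),
    𝒞.compH (castHom (prev_eq a b h₁) ((F b).into ⟨a.1, h₁⟩))
      (castHom (prev_eq b c h₂) ((F c).into ⟨b.1, h₂⟩))
    = castHom (prev_eq a c (h₁.trans h₂)) ((F c).into ⟨a.1, h₁.trans h₂⟩)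

/-- The connecting morphisms of a good family. -/
def gmap {F : ∀ a : s, Stage 𝒞 a.1} (hF : Good F) (a b : s) (h : a.1 ≤ b.1) :
    𝒞.Hom (F a).obj (F b).obj :=
  if e : a = b then e ▸ 𝒞.idH (F a).obj
  else castHom (hF.prev_eq a b (lt_of_le_of_ne h fun x => e (Subtype.ext x)))
    ((F b).into ⟨a.1, lt_of_le_of_ne h fun x => e (Subtype.ext x)⟩)

lemma gmap_self {F : ∀ a : s, Stage 𝒞 a.1} (hF : Good F) (a : s) :
    gmap hF a a le_rfl = 𝒞.idH _ := by
  simp [gmap]

lemma gmap_lt {F : ∀ a : s, Stage 𝒞 a.1} (hF : Good F) {a b : s} (h : a.1 < b.1) :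
    gmap hF a b h.le = castHom (hF.prev_eq a b h) ((F b).into ⟨a.1, h⟩) := by
  have e : ¬ a = b := fun e => h.ne (congrArg Subtype.val e)
  simp [gmap, e]

/-- The system of a good family. -/
def sysOf {F : ∀ a : s, Stage 𝒞 a.1} (hF : Good F) : Sys 𝒞 s where
  obj a := (F a).obj
  map := gmap hF
  map_id := gmap_self hF
  map_comp a b c h₁ h₂ := by
    rcases eq_or_lt_of_le h₁ with e | l₁
    · obtain rfl := Subtype.ext e
      rw [gmap_self, 𝒞.id_comp]
    rcases eq_or_lt_of_le h₂ with e | l₂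
    · obtain rfl := Subtype.ext e
      rw [gmap_self, 𝒞.comp_id]
    rw [gmap_lt hF l₁, gmap_lt hF l₂, hF.comm a b c l₁ l₂, gmap_lt hF (l₁.trans l₂)]

/-- The stage made of a cocone. -/
def stageOf {l : Ω} {D : Sys 𝒞 (Set.Iio l)} (c : Cocone D) : Stage 𝒞 l :=
  ⟨c.apex, D.obj, c.leg⟩

variable [WellFoundedLT Ω]

open Classical in
/-- One step of the recursion. -/
noncomputable def next (o₀ : 𝒞.Obj) (build : ∀ (l : Ω) (D : Sys 𝒞 (Set.Iio l)), Cocone D)
    (l : Ω) (F : ∀ a : Set.Iio l, Stage 𝒞 a.1) : Stage 𝒞 l :=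
  if h : Good F then stageOf (build l (sysOf h))
  else ⟨o₀, fun _ => o₀, fun _ => 𝒞.idH o₀⟩

/-- The stages. -/
noncomputable def stages (o₀ : 𝒞.Obj) (build : ∀ (l : Ω) (D : Sys 𝒞 (Set.Iio l)), Cocone D) :
    ∀ l : Ω, Stage 𝒞 l :=
  wellFounded_lt.fix fun l F => next o₀ build l fun a => F a.1 a.2

variable (o₀ : 𝒞.Obj) (build : ∀ (l : Ω) (D : Sys 𝒞 (Set.Iio l)), Cocone D)

lemma stages_eq (l : Ω) :
    stages o₀ build l = next o₀ build l fun a => stages o₀ build a.1 :=
  wellFounded_lt.fix_eq _ l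

/-- If the stages below every member are good, the stages of the members are good. -/
lemma good_of (s : Set Ω)
    (ih : ∀ l ∈ s, Good (fun a : Set.Iio l => stages o₀ build a.1)) :
    Good (fun a : s => stages o₀ build a.1) := by
  have key : ∀ b : s, stages o₀ build b.1 = stageOf (build b.1 (sysOf (ih b.1 b.2))) := by
    intro b
    rw [stages_eq]
    simp [next, ih b.1 b.2]
  have key₁ : ∀ (b : s) (a : Set.Iio b.1),
      (stages o₀ build b.1).prev a = (stages o₀ build a.1).obj := by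
    intro b a
    rw [key b]
    rfl
  refine ⟨fun a b h => key₁ b ⟨a.1, h⟩, fun a b c h₁ h₂ => ?_⟩
  have hc : ∀ (S : Stage 𝒞 c.1) (_ : S = stageOf (build c.1 (sysOf (ih c.1 c.2))))
      (p₁ : S.prev ⟨b.1, h₂⟩ = (stages o₀ build b.1).obj)
      (p₂ : S.prev ⟨a.1, h₁.trans h₂⟩ = (stages o₀ build a.1).obj),
      𝒞.compH (castHom (key₁ b ⟨a.1, h₁⟩) ((stages o₀ build b.1).into ⟨a.1, h₁⟩))
        (castHom p₁ (S.into ⟨b.1, h₂⟩))
      = castHom p₂ (S.into ⟨a.1, h₁.trans h₂⟩) := by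
    rintro _ rfl p₁ p₂
    have hm := (build c.1 (sysOf (ih c.1 c.2))).comm ⟨a.1, h₁.trans h₂⟩ ⟨b.1, h₂⟩ h₁.le
    rw [show (sysOf (ih c.1 c.2)).map ⟨a.1, h₁.trans h₂⟩ ⟨b.1, h₂⟩ h₁.le = _ from
      gmap_lt (ih c.1 c.2) (a := ⟨a.1, h₁.trans h₂⟩) (b := ⟨b.1, h₂⟩) h₁] at hm
    exact hm
  exact hc _ (key c) _ _

/-- The stages below `l` form a good family. -/
lemma good_below (l : Ω) : Good (fun a : Set.Iio l => stages o₀ build a.1) := by
  induction l using WellFoundedLT.induction with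
  | _ l ih => exact good_of o₀ build _ ih

lemma good_all : Good (fun a : (Set.univ : Set Ω) => stages o₀ build a.1) :=
  good_of o₀ build _ fun l _ => good_below o₀ build l

end Rec

open Rec in
/-- **Transfinite recursion**: some global system has all its caps given by `build`. -/
theorem exists_tower [WellFoundedLT Ω] (o₀ : 𝒞.Obj)
    (build : ∀ (l : Ω) (D : Sys 𝒞 (Set.Iio l)), Cocone D) :
    ∃ T : Sys 𝒞 (Set.univ : Set Ω), ∀ l, T.cap l = build l (T.below l) := by
  refine ⟨sysOf (good_all o₀ build), fun l => ?_⟩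
  have hbelow : (sysOf (good_all o₀ build)).below l = sysOf (good_below o₀ build l) := by
    unfold Sys.below sysOf
    congr 1
    funext a b h
    dsimp only
    rcases eq_or_lt_of_le h with e | e
    · obtain rfl := Subtype.ext e
      exact (gmap_self (good_all o₀ build) ⟨a.1, Set.mem_univ _⟩).trans
        (gmap_self (good_below o₀ build l) a).symm
    · exact (gmap_lt _ (a := ⟨a.1, Set.mem_univ _⟩) (b := ⟨b.1, Set.mem_univ _⟩) e).trans
        (gmap_lt (good_below o₀ build l) e).symm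
  have key : stages o₀ build l = stageOf (build l (sysOf (good_below o₀ build l))) := by
    rw [stages_eq]
    simp [next, good_below o₀ build l]
  have fin : ∀ (D : Sys 𝒞 (Set.Iio l)) (_ : D = sysOf (good_below o₀ build l))
      (c : Cocone D) (hc : stageOf c = stages o₀ build l), c = build l D := by
    rintro _ rfl c hc
    rw [key] at hc
    cases c
    generalize build l (sysOf (good_below o₀ build l)) = c' at hc ⊢
    cases c'
    simp only [stageOf, Stage.mk.injEq] at hc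
    obtain ⟨rfl, _, h3⟩ := hc
    cases h3
    rfl
  refine fin _ hbelow _ ?_
  have hp : ∀ a : Set.Iio l, (stages o₀ build l).prev a = (stages o₀ build a.1).obj := fun a =>
    (good_all o₀ build).prev_eq ⟨a.1, Set.mem_univ _⟩ ⟨l, Set.mem_univ _⟩ a.2
  have e : ∀ (S : Stage 𝒞 l) (q : Set.Iio l → 𝒞.Obj) (f : ∀ a, 𝒞.Hom (q a) S.obj)
      (hq : ∀ a, q a = S.prev a), (∀ a, HEq (f a) (S.into a)) → Stage.mk S.obj q f = S := by
    intro S q f hq hf
    obtain rfl : q = S.prev := funext hq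
    obtain rfl : f = S.into := funext fun a => eq_of_heq (hf a)
    rfl
  unfold Sys.cap stageOf sysOf Sys.below
  refine e _ _ _ (fun a => (hp a).symm) fun a => ?_
  dsimp only
  rw [gmap_lt _ (a := ⟨a.1, Set.mem_univ _⟩) (b := ⟨l, Set.mem_univ _⟩) a.2]
  exact castHom_heq _ _

end Vale.Agent.P070.ZFC.Tower
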